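import Vale.Agent.Lib.P247.Abstract

/-!
# P247: hypersymplectic triples orthogonal to a hyperkaehler triple off the diagonal

Pointwise formulation over a connected base `X`: `θ x` and `ω x` are triples of 2-forms on `ℝ⁴`
(values of global 2-forms in oriented coframes of unit volume).  If `θ` is a hyperkaehler triple,
`ω` is hypersymplectic, `ω_i ∧ θ_j = 0` for `i ≠ j`, and each function `ω_i ∧ θ_i` is continuous
and positive somewhere, then the straight line from `ω` to `θ` stays hypersymplectic.
-/

namespace Vale.Agent.Results.P247.HyperkahlerOrthogonalPath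

open Vale.Agent.Lib.P247

theorem result {X : Type} [TopologicalSpace X] [PreconnectedSpace X]
    (θ ω : X → Fin 3 → Matrix (Fin 4) (Fin 4) ℝ)
    (hθ : ∀ x i j, wedge (θ x i) (θ x j) = if i = j then 2 else 0)
    (horth : ∀ x i j, i ≠ j → wedge (ω x i) (θ x j) = 0)
    (hω : ∀ x, (gram (ω x)).PosDef)
    (hcont : ∀ i, Continuous fun x => wedge (ω x i) (θ x i))
    (hpos : ∀ i, ∃ x, 0 < wedge (ω x i) (θ x i)) :
    ∀ t ∈ Set.Icc (0 : ℝ) 1, ∀ x, (gram (fun i => (1 - t) • ω x i + t • θ x i)).PosDef :=
  abstract_path θ ω hθ horth hω hcont hpos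

end Vale.Agent.Results.P247.HyperkahlerOrthogonalPath
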