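import Vale.Agent.Lib.P247.Global

/-!
# P247: hypersymplectic triples of Kaehler-potential type on flat 4-tori

On the flat torus `ℝ⁴ / Λ` with its standard hyperkaehler triple `c θ₁, c θ₂, c θ₃`, consider
triples of closed 2-forms `ω_i = c θ_i + d d^c_{J_i} f_i` with `Λ`-periodic potentials `f_i`.
If such a triple is hypersymplectic, then the straight line `ω(t) = (1 - t) ω + t c θ`, which
is the triple with potentials `(1 - t) f_i`, is hypersymplectic for every `t ∈ [0, 1]`.
-/

namespace Vale.Agent.Results.P247.TorusKahlerPotentialPath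

open Vale.Agent.Lib.P247

theorem result (b : Module.Basis (Fin 4) ℝ (Fin 4 → ℝ))
    (f : Fin 3 → (Fin 4 → ℝ) → ℝ) (hf : ∀ i, ContDiff ℝ 2 (f i))
    (hper : ∀ i, ∀ v ∈ Submodule.span ℤ (Set.range b), ∀ x, f i (x + v) = f i x)
    (c : ℝ) (hc : 0 < c)
    (hω : ∀ x, (gram (potTriple c f x)).PosDef) :
    (∀ t ∈ Set.Icc (0 : ℝ) 1, ∀ x,
        (gram (potTriple c (fun i y => (1 - t) * f i y) x)).PosDef)
    ∧ (∀ (t : ℝ) (x : Fin 4 → ℝ) (i : Fin 3),
        potTriple c (fun i y => (1 - t) * f i y) x i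
          = (1 - t) • potTriple c f x i + t • (c • kform (stdJ i)))
    ∧ (∀ i j : Fin 3,
        wedge (c • kform (stdJ i)) (c • kform (stdJ j)) = if i = j then 2 * c ^ 2 else 0) :=
  linear_path b f hf hper c hc hω

end Vale.Agent.Results.P247.TorusKahlerPotentialPath
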